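import Vale.Agent.P247.LinearPath

/-!
# P247: a pointwise criterion under which the linear path solves Donaldson's conjecture on `T⁴`
-/

namespace Vale.Agent.Results.P247.MixedPositivity

open Vale.Agent.P247

/-- Let `ω` be a hypersymplectic structure on `T⁴ = ℝ⁴ / ℤ⁴` which is cohomologous to a
constant-coefficient (flat) hyperkaehler triple `c`.  If at every point the symmetric part of the
mixed matrix `ω i ∧ c j` is positive semidefinite, then the linear path `(1 - t) ω + t c` is a
cohomologous deformation of `ω` through hypersymplectic structures ending at the hyperkaehler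
triple `c`. -/
theorem result (ω : Fin 3 → E4 → Alt 2) (hω : IsHypersymplectic ω) (c : Fin 3 → Alt 2)
    (hc : IsHyperkahlerTriple (fun i _ => c i))
    (hcoh : ∀ i, Cohomologous (ω i) (fun _ => c i))
    (hmix : ∀ (x : E4) (v : Fin 3 → ℝ), 0 ≤ ∑ i, ∑ j, v i * v j * wedge (ω i x) (c j)) :
    ∃ Ω : ℝ → Fin 3 → E4 → Alt 2, IsCohomologousDeformation ω Ω ∧ IsHyperkahlerTriple (Ω 1) ∧
      ∀ t i x, Ω t i x = (1 - t) • ω i x + t • c i := by
  refine ⟨linPath ω c, ?_, ?_, fun t i x => rfl⟩
  · apply linPath_isCohomologousDeformation ω hω c hcoh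
    intro t ht x
    rw [posDef_gram_iff]
    intro v hv
    rw [wedge_comb_linPath]
    have h1 : 0 < wedge (comb v (fun i => ω i x)) (comb v (fun i => ω i x)) :=
      (posDef_gram_iff _).mp (hω.posDef x) v hv
    have h2 : 0 < wedge (comb v c) (comb v c) := (posDef_gram_iff _).mp (hc.1.posDef 0) v hv
    have h3 : 0 ≤ wedge (comb v (fun i => ω i x)) (comb v c) := by
      rw [wedge_comb_comb]; exact hmix x v
    obtain ⟨ht0, ht1⟩ := ht
    have h4 : 0 ≤ 2 * t * (1 - t) * wedge (comb v (fun i => ω i x)) (comb v c) :=
      mul_nonneg (mul_nonneg (by linarith) (by linarith)) h3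
    rcases eq_or_lt_of_le ht0 with h0 | h0
    · subst h0
      simpa using h1
    · have h5 : 0 < t ^ 2 * wedge (comb v c) (comb v c) := mul_pos (by positivity) h2
      have h6 : 0 ≤ (1 - t) ^ 2 * wedge (comb v (fun i => ω i x)) (comb v (fun i => ω i x)) :=
        mul_nonneg (by positivity) h1.le
      linarith
  · have : linPath ω c 1 = fun i _ => c i := by
      ext i x : 2
      simp [linPath]
    rw [this]
    exact hc

end Vale.Agent.Results.P247.MixedPositivity
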